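import Mathlib
import Vale.Agent.Helper7.Ruzsa

/-!
P042 (sets avoiding intersective polynomial differences), the monomials `h(x) = x^k`.

For every `k ≥ 2` the greedy exponent `1 - 1/k` is not sharp: there are `γ > 1 - 1/k` and
`c > 0` such that every `{1, ..., N}` contains a set of at least `c * N ^ γ` integers no two
of which differ by a positive `k`-th power.  The proof feeds Ruzsa's digit construction with
the two residues `0, d` modulo a prime `p ≡ 1 (mod 2k)`, where neither `d` nor `-d` is a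
`k`-th power residue modulo `p`.
-/

namespace Vale.Agent.Results.P042.AllPowers

/-- For a prime `p ≡ 1 (mod 2k)`, `k ≥ 2`, some residue `d` has neither `d` nor `-d` a `k`-th
power modulo `p`. -/
theorem exists_nonresidue (p k : ℕ) [hpf : Fact p.Prime] (hk : 2 ≤ k)
    (hp : p ≡ 1 [MOD 2 * k]) :
    ∃ d : ZMod p, d ≠ 0 ∧ (∀ x : ZMod p, x ^ k ≠ d) ∧ (∀ x : ZMod p, x ^ k ≠ -d) := by
  have hp2 : 2 ≤ p := hpf.out.two_le
  obtain ⟨t, ht⟩ : 2 * k ∣ p - 1 := (Nat.modEq_iff_dvd' (by omega)).mp hp.symm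
  have ht0 : 0 < t := by
    rcases Nat.eq_zero_or_pos t with h0 | h0
    · subst h0
      exfalso
      have hk' : 2 * k ∣ p - 1 := ⟨0, ht⟩
      have hne : p ≠ 1 := by omega
      have : p - 1 = 0 := by simpa using ht
      omega
    · exact h0
  obtain ⟨g, hg⟩ := IsCyclic.exists_generator (α := (ZMod p)ˣ)
  have hord : orderOf g = p - 1 := by
    rw [orderOf_eq_card_of_forall_mem_zpowers hg, Nat.card_eq_fintype_card,
      ZMod.card_units_eq_totient, Nat.totient_prime hpf.out]
  -- `g` is not a `k`-th power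
  have hF2 : ∀ x : ZMod p, x ^ k ≠ (g : ZMod p) := by
    intro x hx
    have hx0 : x ≠ 0 := by
      rintro rfl
      rw [zero_pow (by omega)] at hx
      exact g.ne_zero hx.symm
    have hu : (Units.mk0 x hx0) ^ k = g := by
      apply Units.ext
      simpa using hx
    have hmem : Units.mk0 x hx0 ∈ Subgroup.zpowers g := hg _
    rw [← mem_powers_iff_mem_zpowers] at hmem
    obtain ⟨j, hj⟩ := hmem
    have hj' : g ^ (j * k) = g ^ 1 := by
      rw [pow_mul, pow_one]
      simp only at hj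
      rw [hj, hu]
    rw [pow_eq_pow_iff_modEq, hord, ht] at hj'
    have hk1 : j * k ≡ 1 [MOD k] := hj'.of_dvd ⟨2 * t, by ring⟩
    have hk0 : j * k ≡ 0 [MOD k] := (Nat.modEq_zero_iff_dvd).mpr ⟨j, by ring⟩
    have h01 : 0 ≡ 1 [MOD k] := hk0.symm.trans hk1
    have hdvd : k ∣ 1 := (Nat.modEq_iff_dvd' (by omega)).mp h01
    have := Nat.le_of_dvd (by omega) hdvd
    omega
  -- `-1` is a `k`-th power
  have hF1 : ∃ y : ZMod p, y ^ k = -1 := by
    refine ⟨((g ^ t : (ZMod p)ˣ) : ZMod p), ?_⟩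
    have hz2 : (g ^ (t * k)) ^ 2 = 1 := by
      rw [← pow_mul, show t * k * 2 = p - 1 by rw [ht]; ring, ← hord]
      exact pow_orderOf_eq_one g
    have hz1 : g ^ (t * k) ≠ 1 := by
      intro h1
      have hdvd : orderOf g ∣ t * k := orderOf_dvd_of_pow_eq_one h1
      rw [hord, ht] at hdvd
      have hle := Nat.le_of_dvd (Nat.mul_pos ht0 (by omega)) hdvd
      nlinarith
    have hz2' : (((g ^ (t * k) : (ZMod p)ˣ) : ZMod p) - 1)
        * (((g ^ (t * k) : (ZMod p)ˣ) : ZMod p) + 1) = 0 := by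
      have := congrArg (fun u : (ZMod p)ˣ => (u : ZMod p)) hz2
      simp only [Units.val_pow_eq_pow_val, Units.val_one] at this ⊢
      linear_combination this
    rcases mul_eq_zero.mp hz2' with h | h
    · exfalso
      apply hz1
      apply Units.ext
      rw [Units.val_one]
      linear_combination h
    · rw [← Units.val_pow_eq_pow_val, ← pow_mul]
      linear_combination h
  obtain ⟨y, hy⟩ := hF1
  refine ⟨(g : ZMod p), g.ne_zero, hF2, ?_⟩
  intro x hx
  apply hF2 (x * y)
  rw [mul_pow, hx, hy]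
  ring

/-- For every `k ≥ 2` there are `γ > 1 - 1/k` and `c > 0` such that every `{1, ..., N}`
contains a set with at least `c * N ^ γ` elements and no difference equal to a positive
`k`-th power. -/
theorem result : ∀ k : ℕ, 2 ≤ k → ∃ γ : ℝ, 1 - 1 / (k : ℝ) < γ ∧ ∃ c : ℝ, 0 < c ∧
    ∀ N : ℕ, 1 ≤ N → ∃ A : Finset ℕ, A ⊆ Finset.Icc 1 N ∧
      (∀ a ∈ A, ∀ b ∈ A, ∀ n : ℕ, 1 ≤ n → (a : ℤ) - b ≠ (n : ℤ) ^ k) ∧
      c * (N : ℝ) ^ γ ≤ A.card := by
  intro k hk
  obtain ⟨p, hpp, hp2, hpmod⟩ := Nat.exists_prime_gt_modEq_one (k := 2 * k) 2 (by omega)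
  have hpf : Fact p.Prime := ⟨hpp⟩
  obtain ⟨d, hd0, hd1, hd2⟩ := exists_nonresidue p k hk hpmod
  have hdval : d.val ≠ 0 := by
    intro h
    exact hd0 ((ZMod.val_eq_zero d).mp h)
  have hR : ∀ r ∈ ({0, d.val} : Finset ℕ), ∀ r' ∈ ({0, d.val} : Finset ℕ), r ≠ r' →
      ∀ x : ℕ, (x ^ k + r') % p ≠ r % p := by
    intro r hr r' hr' hne x hx
    have hcast : ((x ^ k + r' : ℕ) : ZMod p) = (r : ZMod p) :=
      (ZMod.natCast_eq_natCast_iff' _ _ _).mpr hx
    push_cast at hcast
    simp only [Finset.mem_insert, Finset.mem_singleton] at hr hr'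
    rcases hr with rfl | rfl <;> rcases hr' with rfl | rfl
    · exact hne rfl
    · rw [ZMod.natCast_zmod_val] at hcast
      apply hd2 (x : ZMod p)
      simp only [Nat.cast_zero] at hcast
      linear_combination hcast
    · rw [ZMod.natCast_zmod_val] at hcast
      apply hd1 (x : ZMod p)
      simp only [Nat.cast_zero, add_zero] at hcast
      exact hcast
    · exact hne rfl
  have hcard : ({0, d.val} : Finset ℕ).card = 2 := Finset.card_pair (Ne.symm hdval)
  have h := Vale.Agent.Helper7.Ruzsa.lower_bound (m := p) (k := k) (R := {0, d.val})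
    hpp.squarefree (by omega) (by omega) ⟨0, by simp⟩
    (by
      intro r hr
      simp only [Finset.mem_insert, Finset.mem_singleton] at hr
      rcases hr with rfl | rfl
      · omega
      · exact ZMod.val_lt d)
    hR
  rw [hcard] at h
  refine ⟨((k : ℝ) - 1 + Real.log (2 : ℕ) / Real.log p) / k, ?_, h⟩
  have hk0 : (0 : ℝ) < k := by exact_mod_cast (by omega : 0 < k)
  have hlog2 : (0 : ℝ) < Real.log (2 : ℕ) := Real.log_pos (by norm_num)
  have hlogp : (0 : ℝ) < Real.log p := Real.log_pos (by exact_mod_cast (by omega : 1 < p))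
  have hpos : (0 : ℝ) < Real.log (2 : ℕ) / Real.log p / k := by positivity
  have e : ((k : ℝ) - 1 + Real.log (2 : ℕ) / Real.log p) / k
      = 1 - 1 / (k : ℝ) + Real.log (2 : ℕ) / Real.log p / k := by
    field_simp
  rw [e]
  linarith

end Vale.Agent.Results.P042.AllPowers
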