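import Mathlib
import Vale.Agent.Helper7.Ruzsa

/-!
P042 (sets avoiding intersective polynomial differences), the case `h(x) = x^3`.

Ruzsa's digit construction, fed with a set of fourteen residues modulo `91 = 7 * 13` no two
of which differ by a cubic residue modulo `91`, gives for every `N` a subset of `{1, ..., N}`
with no difference equal to a positive cube and with at least `c * N ^ γ` elements, where
`γ = (2 + log 14 / log 91) / 3 = 0.86168...`; in particular `γ > 0.86 > 2/3`.
-/

namespace Vale.Agent.Results.P042.CubeDifferences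

theorem exponent_bound : (43 : ℝ) / 50 < (2 + Real.log 14 / Real.log 91) / 3 := by
  have h91 : (0 : ℝ) < Real.log 91 := Real.log_pos (by norm_num)
  have hpow : ((91 : ℝ) ^ 29) < (14 : ℝ) ^ 50 := by norm_num
  have hlog := Real.log_lt_log (by positivity) hpow
  rw [Real.log_pow, Real.log_pow] at hlog
  have hratio : (29 : ℝ) / 50 < Real.log 14 / Real.log 91 := by
    rw [div_lt_div_iff₀ (by norm_num) h91]
    push_cast at hlog
    linarith
  linarith

/-- For every `N ≥ 1` there is a set `A ⊆ {1, ..., N}` no two of whose elements differ by a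
positive cube, with `|A| ≥ c * N ^ γ`, `γ = (2 + log 14 / log 91) / 3 > 43/50`. -/
theorem result :
    (∃ c : ℝ, 0 < c ∧ ∀ N : ℕ, 1 ≤ N → ∃ A : Finset ℕ, A ⊆ Finset.Icc 1 N ∧
      (∀ a ∈ A, ∀ b ∈ A, ∀ n : ℕ, 1 ≤ n → (a : ℤ) - b ≠ (n : ℤ) ^ 3) ∧
      c * (N : ℝ) ^ ((2 + Real.log 14 / Real.log 91) / 3 : ℝ) ≤ A.card) ∧
    (43 : ℝ) / 50 < (2 + Real.log 14 / Real.log 91) / 3 := by
  refine ⟨?_, exponent_bound⟩
  refine Vale.Agent.Helper7.Ruzsa.lower_bound_of_cert (m := 91) (k := 3) (P := [7, 13])
    (R := [6, 10, 15, 26, 35, 46, 51, 55, 66, 71, 75, 77, 81, 86]) _ ?_ (by norm_num)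
    (by norm_num) (by decide) (by decide) (by decide) (by decide) (by decide) (by norm_num)
  rw [show (91 : ℕ) = 7 * 13 from rfl, Nat.squarefree_mul_iff]
  exact ⟨by norm_num, (by norm_num : Nat.Prime 7).squarefree,
    (by norm_num : Nat.Prime 13).squarefree⟩

end Vale.Agent.Results.P042.CubeDifferences
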