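import Mathlib
import Vale.Agent.Results.P042.AllPowers
import Vale.Agent.Results.P042.CubeDifferences

/-!
P042 (sets avoiding intersective polynomial differences), the monomials `h(x) = x^k`:
the conjunction of the hand-ins `AllPowers` (every `k ≥ 2`, some exponent above `1 - 1/k`)
and `CubeDifferences` (`k = 3`, the explicit exponent `(2 + log 14 / log 91) / 3 > 43/50`),
stated as one theorem.
-/

namespace Vale.Agent.Results.P042.PowersAndCubes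

theorem result :
    (∀ k : ℕ, 2 ≤ k → ∃ γ : ℝ, 1 - 1 / (k : ℝ) < γ ∧ ∃ c : ℝ, 0 < c ∧
      ∀ N : ℕ, 1 ≤ N → ∃ A : Finset ℕ, A ⊆ Finset.Icc 1 N ∧
        (∀ a ∈ A, ∀ b ∈ A, ∀ n : ℕ, 1 ≤ n → (a : ℤ) - b ≠ (n : ℤ) ^ k) ∧
        c * (N : ℝ) ^ γ ≤ A.card) ∧
    ((∃ c : ℝ, 0 < c ∧ ∀ N : ℕ, 1 ≤ N → ∃ A : Finset ℕ, A ⊆ Finset.Icc 1 N ∧
      (∀ a ∈ A, ∀ b ∈ A, ∀ n : ℕ, 1 ≤ n → (a : ℤ) - b ≠ (n : ℤ) ^ 3) ∧
      c * (N : ℝ) ^ ((2 + Real.log 14 / Real.log 91) / 3 : ℝ) ≤ A.card) ∧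
    (43 : ℝ) / 50 < (2 + Real.log 14 / Real.log 91) / 3) :=
  ⟨Vale.Agent.Results.P042.AllPowers.result, Vale.Agent.Results.P042.CubeDifferences.result⟩

end Vale.Agent.Results.P042.PowersAndCubes
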